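import Vale.Agent.P022G.R.Defs
import Vale.Agent.P022E.Loc.Cls
import Vale.Agent.P022D.Rl.Defs
import Vale.Agent.P022D.Loc2.Defs
import Vale.Agent.P022D.Loc2.Dec
import Vale.Agent.P022D.W.Tame

/-!
# P022G, block Loc: the class of test objects and its local coordinates
-/

set_option linter.all false

noncomputable section

namespace Vale.Agent.P022G.Loc

open NumberField IsLocalRing
open Vale.Agent.P022 Vale.Agent.P022.H443 Vale.Agent.P022D Vale.Agent.P022G.R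
open Vale.Agent.P027M.S (mx)
open Vale.Agent.P022D.Sel (M2 IsDec)
open Vale.Agent.P022E.Loc (Pl Tm Rt En)

variable {O F : Type} [CommRing O] [Field F]

/-- `ρ` is diagonal on `H`, antidiagonal outside, and the field of `H` is in `ℚ(ζ₈)` -/
structure Dh (ρ : GQ →* GL (Fin 2) F) (H : Subgroup GQ) : Prop where
  dg : ∀ g ∈ H, mx ρ g 0 1 = 0 ∧ mx ρ g 1 0 = 0
  ad : ∀ g ∉ H, mx ρ g 0 0 = 0 ∧ mx ρ g 1 1 = 0
  opn : IsOpen {g : GQ | ρ g = 1}
  irr : ∃ g ∈ H, (∀ z : Qb, z ^ 8 = 1 → g z = z) ∧ mx ρ g 0 0 ≠ mx ρ g 1 1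
  cy8 : ∀ g : GQ, (∀ z : Qb, z ^ 8 = 1 → g z = z) → g ∈ H

/-- the hypotheses on the data -/
structure OkG [IsLocalRing O] (L : Pl O) (S : Dat O F) : Prop where
  ker : ∀ c, S.red c = 0 ↔ c ∈ maximalIdeal O
  dh : Dh S.rb L.H
  det : ∀ g, (mx S.rb g).det = 1
  hT : S.T = insert 0 (insert 2 (L.W ∪ L.C))
  dj : Disjoint L.W L.C
  pr : ∀ l ∈ L.W ∪ L.C, l.Prime ∧ l ≠ 2
  hP : ∀ l ∈ L.W ∪ L.C, (L.P l).IsPrime ∧ (l : 𝓞 Qb) ∈ L.P l
  h2 : L.P 2 = Loc2.PP 2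
  cj : IsConj L.c
  tm : ∀ l ∈ L.W ∪ L.C, Tm l (L.P l) (L.τ l) (L.φ l)
  reg : ∀ l ∈ L.W, L.g0 l ∈ W.dec (L.P l) ∧ L.g0 l ∈ L.H ∧
    mx S.rb (L.g0 l) 0 0 ≠ mx S.rb (L.g0 l) 1 1
  uni : ∀ l ∈ L.C, ∀ g ∈ W.dec (L.P l), (mx S.rb g).trace = 0
  lift : ∀ g, (L.r g).map S.red = mx S.rb g
  cont : ∀ k : ℕ, IsOpen {g : GQ | (L.r g).map (Ideal.Quotient.mk (maximalIdeal O ^ k)) = 1}
  odd : (L.r L.c).det = -1
  ty : ∀ l ∈ L.W, ∃ y : O, Rt L.r (L.g0 l) y ∧ S.red y = mx S.rb (L.g0 l) 1 1 ∧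
    En L.r (L.g0 l) (L.τ l) y (L.a l)

/-- **the local conditions** (they only depend on traces and determinants) -/
structure Cnd (L : Pl O) (S : Dat O F) {A : Type} [CommRing A] (X : Obj S A) : Prop where
  d2 : ∀ g ∈ W.dec (L.P 2), (X.ρ g).det = X.ι (L.r g).det
  dc : (X.ρ L.c).det = -1
  dl : ∀ l ∈ L.W ∪ L.C, (X.ρ (L.τ l)).det = X.ι (L.r (L.τ l)).det
  ty : ∀ l ∈ L.W, ∃ y : A, Rt X.ρ (L.g0 l) y ∧ X.π y = mx S.rb (L.g0 l) 1 1 ∧
    En X.ρ (L.g0 l) (L.τ l) y (X.ι (L.a l))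

/-- **the class** -/
def ClG (L : Pl O) (S : Dat O F) : Cl S := fun _ _ X => Cnd L S X

/-- the local representation at `l` -/
def lr {S : Dat O F} {A : Type} [CommRing A] (X : Obj S A) (l : ℕ) : GQ →* M2 A where
  toFun g := X.β l * X.ρ g * X.α l
  map_one' := by rw [map_one, mul_one]; exact mul_eq_one_comm.1 (X.inv l)
  map_mul' g h := by
    rw [map_mul]
    calc X.β l * (X.ρ g * X.ρ h) * X.α l
        = X.β l * (X.ρ g * (X.α l * X.β l) * X.ρ h) * X.α l := by rw [X.inv, mul_one]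
      _ = _ := by simp only [mul_assoc]

theorem lr_apply {S : Dat O F} {A : Type} [CommRing A] (X : Obj S A) (l : ℕ) (g : GQ) :
    lr X l g = X.β l * X.ρ g * X.α l := rfl

/-- an object over the dual numbers with the standard structure maps -/
structure Std {S : Dat O F} (Y : Obj S (DualNumber F)) : Prop where
  pi : ∀ a, Y.π a = a.fst
  io : ∀ c, Y.ι c = TrivSqZeroExt.inl (S.red c)

/-- a good block of relative dimension `k` at the place `l` -/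
def Blk (L : Pl O) (S : Dat O F) (l k : ℕ) : Prop :=
  ∃ (τ ι : Type) (_ : Fintype τ) (_ : Fintype ι) (g : τ → GQ) (p q : τ → Fin 2) (c : τ → O)
    (f : ι → MvPowerSeries τ O), Fintype.card τ = Fintype.card ι + k ∧
    (∀ t, S.red (c t) = mx S.rb (g t) (p t) (q t)) ∧
    (∀ i, S.red (MvPowerSeries.constantCoeff (f i)) = 0) ∧
    CA.BlkPt (fun i => MvPowerSeries.map S.red (f i)) ∧
    (∀ Y : Obj S (DualNumber F), Std Y → Cnd L S Y →
      (∀ t, lr Y l (g t) (p t) (q t) = Y.ι (c t)) →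
      ∀ x ∈ L.D l, lr Y l x = (mx S.rb x).map TrivSqZeroExt.inl) ∧
    ∀ (A : Type) [CommRing A] (X : Obj S A), Cnd L S X → ∀ ψ : MvPowerSeries τ O →+* A,
      (∀ o, ψ (MvPowerSeries.C o) = X.ι o) →
      (∀ t, ψ (MvPowerSeries.X t) = lr X l (g t) (p t) (q t) - X.ι (c t)) → ∀ i, ψ (f i) = 0

/-- the names of the local coordinates -/
abbrev Ix {β : Type} (τ : β → Type) (L : Pl O) : Type := (Σ b, τ b) ⊕ (L.C × Fin 8)

/-- explicit local coordinates and equations -/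
structure Kx (O β : Type) (τ ι : β → Type) (C : Type) [CommRing O] where
  l : (Σ b, τ b) → ℕ
  g : (Σ b, τ b) → GQ
  p : (Σ b, τ b) → Fin 2
  q : (Σ b, τ b) → Fin 2
  c : (Σ b, τ b) → O
  f : ∀ b, ι b → MvPowerSeries (τ b) O
  u : C → M2 O
  v : C → M2 O
  s : C → O
  b : C → O
  n : C → O
  ξ : C → O
  a : C → ℕ
  a' : C → ℕ

/-- the blocks inside a power series ring with further variables `σ'` -/
def Kx.D {β C : Type} {τ ι : β → Type} (K : Kx O β τ ι C) (lc : C → ℕ) (σ' : Type) :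
    Rl.Dat O (((Σ b, τ b) ⊕ (C × Fin 8)) ⊕ σ') β C τ ι :=
  ⟨Function.Embedding.inl, K.f, K.s, K.b, K.n, K.ξ, lc, K.a, K.a'⟩

/-- the eight coordinates of a tame block -/
def e8 {B : Type} [CommRing B] (s b n : B) (Φ T : M2 B) : Fin 8 → B :=
  ![Φ 0 0 - s, Φ 0 1 - b, Φ 1 0, Φ 1 1 - s, T 0 0 - 1, T 0 1 - n, T 1 0, T 1 1 - 1]

/-- the values of the coordinates on local matrices -/
def Kx.val {β C : Type} {τ ι : β → Type} (K : Kx O β τ ι C) {B : Type} [CommRing B]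
    (j : O →+* B) (w : (Σ b, τ b) → M2 B) (Φ T : C → M2 B) : (Σ b, τ b) ⊕ (C × Fin 8) → B :=
  Sum.elim (fun t => w t (K.p t) (K.q t) - j (K.c t)) fun x =>
    e8 (j (K.s x.1)) (j (K.b x.1)) (j (K.n x.1)) ((K.u x.1).map j * Φ x.1 * (K.v x.1).map j)
      ((K.u x.1).map j * T x.1 * (K.v x.1).map j) x.2

/-- the coordinates of an object -/
def Kx.crd {β : Type} {τ ι : β → Type} (L : Pl O) (K : Kx O β τ ι L.C) (S : Dat O F) :
    Crd S (Ix τ L) := fun _ _ X =>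
  K.val X.ι (fun t => lr X (K.l t) (K.g t)) (fun γ => lr X γ (L.φ γ)) fun γ => lr X γ (L.τ γ)

/-- the properties of the local coordinates -/
structure Kx.Ok {β : Type} {τ ι : β → Type} [Fintype β] [∀ b, Fintype (τ b)] [∀ b, Fintype (ι b)]
    (L : Pl O) (K : Kx O β τ ι L.C) (S : Dat O F) (ϖ : O) : Prop where
  clo : Closed (ClG L S)
  dec : ∀ l ∈ S.T, IsDec l (L.D l)
  loc : Loc L.D (ClG L S) (K.crd L S)
  lT : ∀ t, K.l t ∈ S.T
  uv : ∀ γ, K.u γ * K.v γ = 1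
  card : Fintype.card (Σ b, τ b) + 4 * L.C.card = Fintype.card (Σ b, ι b) + 4 * S.T.card
  ok : ∀ σ' : Type, (K.D (fun γ => (γ : ℕ)) σ').Ok S.red ϖ
  ram : ∀ γ : L.C, S.red (K.n γ) = 0 ↔ mx S.rb (L.τ γ) = 1
  xi : ∀ γ : L.C, K.ξ γ = (L.r (L.τ γ)).det ∧ K.ξ γ ^ ((γ : ℕ) - 1) = 1
  eqs : ∀ (σ' A : Type) [CommRing A] (X : Obj S A), ClG L S A X →
    ∀ ψ : MvPowerSeries (Ix τ L ⊕ σ') O →+* A, (∀ o, ψ (MvPowerSeries.C o) = X.ι o) →
      (∀ i, ψ (MvPowerSeries.X (Sum.inl i)) = K.crd L S A X i) →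
      (K.D (fun γ => (γ : ℕ)) σ').I ≤ RingHom.ker ψ

/-- **The output of the block.** -/
def LOCG : Prop := ∀ (O F : Type) [CommRing O] [IsDomain O] [IsDiscreteValuationRing O]
  [IsAdicComplete (maximalIdeal O) O] [Field F] [Finite F] [CharP F 2] (S : Dat O F) (L : Pl O)
  (ϖ : O), Irreducible ϖ → OkG L S →
  ∃ (β : Type) (τ ι : β → Type) (_ : Fintype β) (_ : ∀ b, Fintype (τ b)) (_ : ∀ b, Fintype (ι b))
    (K : Kx O β τ ι L.C), K.Ok L S ϖ

/-- the residual traces vanish on all decomposition groups at `l` -/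
def UniF (ρ : GQ →* GL (Fin 2) F) (l : ℕ) : Prop :=
  ∀ P : Ideal (𝓞 Qb), P.IsPrime → (l : 𝓞 Qb) ∈ P → ∀ g : GQ, (∀ x ∈ P, g • x ∈ P) →
    (mx ρ g).trace = 0

/-! ### rows -/

/-- the class is closed -/
def CLO : Prop := ∀ (O F : Type) [CommRing O] [IsLocalRing O] [Field F] [CharP F 2]
  (S : Dat O F) (L : Pl O), OkG L S → Closed (ClG L S)

/-- the block at two -/
def B2 : Prop := ∀ (O F : Type) [CommRing O] [IsLocalRing O] [IsNoetherianRing O]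
  [IsAdicComplete (maximalIdeal O) O] [Field F] [Finite F] [CharP F 2] (S : Dat O F) (L : Pl O),
  OkG L S → Blk L S 2 6

/-- the block at infinity -/
def B0 : Prop := ∀ (O F : Type) [CommRing O] [IsLocalRing O] [Field F] [CharP F 2]
  (S : Dat O F) (L : Pl O), OkG L S → Blk L S 0 2

/-- the blocks at the regular primes: four coordinates, no equation -/
def BW : Prop := ∀ (O F : Type) [CommRing O] [IsLocalRing O] [Field F] [CharP F 2]
  (S : Dat O F) (L : Pl O), OkG L S → ∀ l ∈ L.W, Blk L S l 4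

/-- the unipotent primes: a triangular basis, the tame relation, the tangent statement, the
determinant of the point -/
def BC : Prop := ∀ (O F : Type) [CommRing O] [IsLocalRing O]
  [IsAdicComplete (maximalIdeal O) O] [Field F] [CharP F 2]
  (S : Dat O F) (L : Pl O), OkG L S → ∀ l ∈ L.C,
  (∃ (u v : M2 O) (b n : O), u * v = 1 ∧
    u.map S.red * mx S.rb (L.φ l) * v.map S.red = !![1, S.red b; 0, 1] ∧
    u.map S.red * mx S.rb (L.τ l) * v.map S.red = !![1, S.red n; 0, 1]) ∧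
  (∀ (A : Type) [CommRing A] (X : Obj S A),
    X.ρ (L.φ l) * X.ρ (L.τ l) = X.ρ (L.τ l) ^ l * X.ρ (L.φ l)) ∧
  (∀ Y : Obj S (DualNumber F), Std Y →
    lr Y l (L.φ l) = (mx S.rb (L.φ l)).map TrivSqZeroExt.inl →
    lr Y l (L.τ l) = (mx S.rb (L.τ l)).map TrivSqZeroExt.inl →
    ∀ x ∈ L.D l, lr Y l x = (mx S.rb x).map TrivSqZeroExt.inl) ∧
  (L.r (L.τ l)).det ^ (l - 1) = 1

end Vale.Agent.P022G.Loc
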