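import Vale.Agent.P022G.Loc.Defs
import Vale.Agent.P022D.Loc.BC

/-!
# P022G, dihedral case, block Loc: the unipotent primes
-/

set_option linter.all false

noncomputable section

namespace Vale.Agent.P022G.Loc

open NumberField IsLocalRing
open Vale.Agent.P022 Vale.Agent.P022.H443 Vale.Agent.P022D Vale.Agent.P022G.R
open Vale.Agent.P027M.S (mx)
open Vale.Agent.P022D.Sel (M2 IsDec)
open Vale.Agent.P022E.Loc (Pl Tm Rt En)

theorem bc : BC := by
  intro O F _ _ _ _ _ S L hL l hl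
  have hl' : l ∈ L.W ∪ L.C := Finset.mem_union_right _ hl
  have hT := hL.tm l hl'
  have hsq : ∀ g ∈ W.dec (L.P l), mx S.rb g * mx S.rb g = 1 := fun g hg =>
    P022D.Loc.BCA.sq_one (hL.uni l hl g hg) (hL.det g)
  have hφ : L.φ l ∈ W.dec (L.P l) := W.phi_mem (hL.pr l hl').1 (hL.hP l hl').1 hT.frob
  have hτ : L.τ l ∈ W.dec (L.P l) := W.inP_le_dec hT.tau
  refine ⟨?_, fun A _ X => ?_, fun Y hY e1 e2 x hx => ?_, ?_⟩
  · obtain ⟨β, hβ⟩ := P022D.Loc.BCA.basis (D := W.dec (L.P l))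
      ((Units.coeHom (M2 F)).comp S.rb) L.H hL.dh.dg hL.dh.ad (hL.uni l hl) hL.det
    obtain ⟨β, rfl⟩ := S.surj β
    obtain ⟨b, hb⟩ := hβ _ hφ
    obtain ⟨n, hn⟩ := hβ _ hτ
    obtain ⟨b, rfl⟩ := S.surj b
    obtain ⟨n, rfl⟩ := S.surj n
    have e1 : (!![0, 1; 1, -β] : M2 O).map S.red = !![0, 1; 1, -S.red β] := by
      ext i j
      fin_cases i <;> fin_cases j <;> simp
    have e2 : (!![β, 1; 1, 0] : M2 O).map S.red = !![S.red β, 1; 1, 0] := by
      ext i j
      fin_cases i <;> fin_cases j <;> simp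
    refine ⟨!![0, 1; 1, -β], !![β, 1; 1, 0], b, n, ?_, ?_, ?_⟩
    · ext i j
      fin_cases i <;> fin_cases j <;> simp [Matrix.mul_apply, Fin.sum_univ_two]
    · rw [e1, e2]; exact hb
    · rw [e1, e2]; exact hn
  · obtain ⟨N, hN⟩ := hT.tame _ X.ρ X.opn
    exact P022D.Loc.BCA.rel X.π X.loc hN fun g hg => by rw [X.res]; exact hsq g hg
  · have hl0 : l ≠ 0 := (hL.pr l hl').1.ne_zero
    rw [Pl.D, if_neg hl0] at hx
    obtain ⟨N, hN⟩ := hT.tame _ Y.ρ Y.opn
    obtain ⟨k, j, e⟩ := P022D.Loc.BCA.gen Y.π Y.loc hN (fun g hg => by rw [Y.res]; exact hsq g hg) hx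
    have e3 : mx S.rb x = mx S.rb (L.φ l) ^ k * mx S.rb (L.τ l) ^ j := by
      rw [← Y.res, ← Y.res, ← Y.res]
      have := congrArg Y.π.mapMatrix e
      rwa [map_mul, map_pow, map_pow] at this
    have e4 : lr Y l x = lr Y l (L.φ l) ^ k * lr Y l (L.τ l) ^ j := by
      rw [← map_pow, ← map_pow, ← map_mul, lr_apply, lr_apply, e, map_mul, map_pow, map_pow]
    rw [e4, e1, e2, e3]
    have := (TrivSqZeroExt.inlHom F F).mapMatrix.map_mul (mx S.rb (L.φ l) ^ k)
      (mx S.rb (L.τ l) ^ j)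
    rw [map_pow, map_pow] at this
    exact this.symm
  · have hu : ∀ g, IsUnit (L.r g).det := fun g =>
      (Matrix.isUnit_iff_isUnit_det _).1 ((Group.isUnit g).map L.r)
    have key : (L.r (L.φ l)).det * (L.r (L.τ l)).det -
        (L.r (L.τ l)).det ^ l * (L.r (L.φ l)).det = 0 := by
      refine IsHausdorff.haus' (I := maximalIdeal O) _ fun k => ?_
      rw [SModEq.zero, smul_eq_mul, Ideal.mul_top]
      refine Ideal.pow_le_pow_right (Nat.le_succ k) ?_
      let q := Ideal.Quotient.mk (maximalIdeal O ^ (k + 1))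
      let π : O ⧸ maximalIdeal O ^ (k + 1) →+* F := Ideal.Quotient.lift _ S.red fun a ha =>
        (hL.ker a).2 (Ideal.pow_le_self (Nat.succ_ne_zero k) ha)
      have loc : ∀ a, π a ≠ 0 → IsUnit a := by
        intro a ha
        obtain ⟨a, rfl⟩ := Ideal.Quotient.mk_surjective a
        refine IsUnit.map q ?_
        by_contra hn
        exact ha ((hL.ker a).2 hn)
      let f : GQ →* M2 (O ⧸ maximalIdeal O ^ (k + 1)) :=
        (q.mapMatrix : M2 O →+* M2 _).toMonoidHom.comp L.r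
      obtain ⟨N, hN⟩ := hT.tame _ f (hL.cont (k + 1))
      have h1 := P022D.Loc.BCA.rel π loc hN fun g hg => by
        have : (f g).map π = mx S.rb g := by
          rw [← hL.lift]
          ext i j
          rfl
        rw [this]; exact hsq g hg
      have h2 := congrArg Matrix.det h1
      have h3 : ∀ g, (f g).det = q (L.r g).det := fun g => (RingHom.map_det q _).symm
      rw [Matrix.det_mul, Matrix.det_mul, Matrix.det_pow, h3, h3] at h2
      rw [← Ideal.Quotient.eq_zero_iff_mem, map_sub, map_mul, map_mul, map_pow]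
      exact sub_eq_zero.2 h2
    obtain ⟨m, hm⟩ := Nat.exists_eq_succ_of_ne_zero (hL.pr l hl').1.ne_zero
    have e : (L.r (L.φ l)).det * (L.r (L.τ l)).det * ((L.r (L.τ l)).det ^ (l - 1) - 1) = 0 := by
      have : (L.r (L.τ l)).det ^ l = (L.r (L.τ l)).det ^ (l - 1) * (L.r (L.τ l)).det := by
        rw [← pow_succ]; congr 1; omega
      rw [this] at key
      linear_combination -key
    exact sub_eq_zero.1 (((hu _).mul (hu _)).mul_right_eq_zero.1 e)

end Vale.Agent.P022G.Loc
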