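import Vale.Agent.P022G.Loc.Glue3
import Vale.Agent.P022G.Loc.B22
import Vale.Agent.P022G.Loc.BC
import Vale.Agent.P022G.Loc.BW2
import Vale.Agent.P022G.Loc.Clo

/-!
# P022G, block Loc: the output with determination
-/

namespace Vale.Agent.P022G.Loc

theorem locg2 : LOCG2 := locg2_of clo b22 b02 bw2 bc bc2

end Vale.Agent.P022G.Loc
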