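import Vale.Agent.P022G.Loc.Glue
import Vale.Agent.P022G.Loc.B2
import Vale.Agent.P022G.Loc.BC
import Vale.Agent.P022G.Loc.BW

/-!
# P022G, block Loc: the output
-/

namespace Vale.Agent.P022G.Loc

theorem locg : LOCG := locg_of clo b2 b0 bw bc

end Vale.Agent.P022G.Loc
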