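import Vale.Agent.P022G.Loc.Defs

/-!
# P022G, block Loc: the local coordinates determine the local representations (statements)
-/

set_option linter.all false

noncomputable section

namespace Vale.Agent.P022G.Loc

open NumberField IsLocalRing
open Vale.Agent.P022 Vale.Agent.P022.H443 Vale.Agent.P022D Vale.Agent.P022G.R
open Vale.Agent.P027M.S (mx)
open Vale.Agent.P022D.Sel (M2 IsDec)
open Vale.Agent.P022E.Loc (Pl Tm Rt En)

variable {O F : Type} [CommRing O] [Field F]

/-- the coordinates determine the local representations -/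
def Kx.Det {β : Type} {τ ι : β → Type} (L : Pl O) (K : Kx O β τ ι L.C) (S : Dat O F) : Prop :=
  ∀ (B : Type) [CommRing B] (X Y : Obj S B), X.ι = Y.ι → X.π = Y.π → ClG L S B X → ClG L S B Y →
    K.crd L S B X = K.crd L S B Y → ∀ l ∈ S.T, ∀ g ∈ L.D l, lr X l g = lr Y l g

/-- **The output of the block**, with determination. -/
def LOCG2 : Prop := ∀ (O F : Type) [CommRing O] [IsDomain O] [IsDiscreteValuationRing O]
  [IsAdicComplete (maximalIdeal O) O] [Field F] [Finite F] [CharP F 2] (S : Dat O F) (L : Pl O)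
  (ϖ : O), Irreducible ϖ → OkG L S →
  ∃ (β : Type) (τ ι : β → Type) (_ : Fintype β) (_ : ∀ b, Fintype (τ b)) (_ : ∀ b, Fintype (ι b))
    (K : Kx O β τ ι L.C), K.Ok L S ϖ ∧ K.Det L S

end Vale.Agent.P022G.Loc
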