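import Vale.Agent.P022E.Loc.BW

/-!
# P022G, block Loc: two lifts over one finite local ring with the same coordinates
-/

set_option linter.all false

noncomputable section

namespace Vale.Agent.P022G.Loc.Dt

open Vale.Agent.P022D Vale.Agent.P022D.W

variable {B F : Type} [CommRing B] [Field F]

/-- a non zero functional on a non zero ideal -/
theorem ex_fun [Finite B] (π : B →+* F) (loc : ∀ a, π a ≠ 0 → IsUnit a) (J : Ideal B)
    (hJ : J ≠ ⊥) (hπ : ∀ x ∈ J, π x = 0) : ∃ (lam : B → F) (J' : Ideal B), J' < J ∧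
      (∀ x ∈ J, ∀ y ∈ J, lam (x + y) = lam x + lam y) ∧
      (∀ b, ∀ x ∈ J, lam (b * x) = π b * lam x) ∧ ∀ x ∈ J, lam x = 0 → x ∈ J' := by
  classical
  obtain ⟨J', hJ'⟩ := (Set.toFinite {I : Ideal B | I < J}).exists_maximal
    ⟨⊥, bot_lt_iff_ne_bot.2 hJ⟩
  have hlt : J' < J := hJ'.1
  obtain ⟨x0, h0, h1⟩ := SetLike.exists_of_lt hlt
  have key : ∀ z ∈ J, z ∉ J' → ∀ x ∈ J, ∃ b, x - b * z ∈ J' := by
    intro z hz hz' x hx
    have h2 : J' ⊔ Ideal.span {z} ≤ J := sup_le hlt.le ((Ideal.span_singleton_le_iff_mem _).2 hz)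
    have h3 : J' ⊔ Ideal.span {z} = J := by
      by_contra hne
      exact hz' (hJ'.2 (lt_of_le_of_ne h2 hne) le_sup_left
        (Ideal.mem_sup_right (Ideal.mem_span_singleton_self z)))
    obtain ⟨u, hu, v, hv, e⟩ := Submodule.mem_sup.1 (h3.symm ▸ hx)
    obtain ⟨b, rfl⟩ := Ideal.mem_span_singleton'.1 hv
    exact ⟨b, by rw [← e, add_sub_cancel_right]; exact hu⟩
  have k1 : ∀ b, b * x0 ∈ J' ↔ π b = 0 := by
    intro b
    constructor
    · intro h
      by_contra hb
      exact h1 ((Ideal.unit_mul_mem_iff_mem _ (loc b hb)).1 h)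
    · intro hb
      by_contra h
      obtain ⟨c, hc⟩ := key _ (J.mul_mem_left b h0) h x0 h0
      have hu : IsUnit (1 - c * b) := loc _ (by simp [hb])
      refine h1 ((Ideal.unit_mul_mem_iff_mem _ hu).1 ?_)
      convert hc using 1
      ring
  choose! bb hbb using key x0 h0 h1
  have k2 : ∀ x ∈ J, ∀ b, x - b * x0 ∈ J' → π (bb x) = π b := by
    intro x hx b hb
    rw [← sub_eq_zero, ← map_sub, ← k1]
    convert J'.sub_mem hb (hbb x hx) using 1
    ring
  refine ⟨fun x => π (bb x), J', hlt, fun x hx y hy => ?_, fun b x hx => ?_, fun x hx h => ?_⟩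
  · rw [← map_add]
    refine k2 _ (J.add_mem hx hy) _ ?_
    convert J'.add_mem (hbb x hx) (hbb y hy) using 1
    ring
  · rw [← map_mul]
    refine k2 _ (J.mul_mem_left b hx) _ ?_
    convert J'.mul_mem_left b (hbb x hx) using 1
    ring
  · have := J'.add_mem (hbb x hx) ((k1 _).2 h)
    rwa [sub_add_cancel] at this

/-- two different lifts give a non trivial lift to the dual numbers -/
theorem small {G : Type} [Group G] [Finite B] (π : B →+* F) (loc : ∀ a, π a ≠ 0 → IsUnit a)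
    (σ σ' : G →* Mt B) (hπ : ∀ g, (σ g).map π = (σ' g).map π) (hne : ∃ g, σ g ≠ σ' g) :
    ∃ (B' : Type) (_ : CommRing B') (p1 p2 : B' →+* B) (h : B' →+* DualNumber F)
      (σ2 : G →* Mt B') (J : Ideal B), (∀ z, p1 z = 0 → p2 z = 0 → z = 0) ∧
      (∀ x y, x - y ∈ J → ∃ z, p1 z = x ∧ p2 z = y) ∧ (∀ z, p1 z - p2 z ∈ J) ∧
      (∀ z, (h z).fst = π (p1 z)) ∧ (∀ z, p1 z = p2 z → (h z).snd = 0) ∧
      (∀ g, (σ2 g).map p1 = σ g ∧ (σ2 g).map p2 = σ' g) ∧ ∃ g i j, (h (σ2 g i j)).snd ≠ 0 := by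
  let J : Ideal B := Ideal.span (Set.range fun x : G × Fin 2 × Fin 2 =>
    σ x.1 x.2.1 x.2.2 - σ' x.1 x.2.1 x.2.2)
  have hm : ∀ g i j, σ g i j - σ' g i j ∈ J := fun g i j => Ideal.subset_span ⟨(g, i, j), rfl⟩
  have hJ : J ≠ ⊥ := by
    intro h
    obtain ⟨g, hg⟩ := hne
    refine hg (Matrix.ext fun i j => sub_eq_zero.1 ?_)
    exact Ideal.mem_bot.1 (h ▸ hm g i j)
  have hJπ : ∀ x ∈ J, π x = 0 := by
    have : J ≤ RingHom.ker π := by
      rw [Ideal.span_le]
      rintro _ ⟨x, rfl⟩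
      exact (map_sub π _ _).trans (sub_eq_zero.2 (congrFun (congrFun (hπ x.1) x.2.1) x.2.2))
    exact fun x hx => this hx
  obtain ⟨lam, J', hlt, l1, l2, l3⟩ := ex_fun π loc J hJ hJπ
  have l0 : lam 0 = 0 := by
    have := l2 0 0 J.zero_mem
    rwa [mul_zero, map_zero, zero_mul] at this
  let B' : Subring (B × B) := RingHom.eqLocus ((Ideal.Quotient.mk J).comp (RingHom.fst B B))
    ((Ideal.Quotient.mk J).comp (RingHom.snd B B))
  have hB : ∀ z : B × B, z ∈ B' ↔ z.1 - z.2 ∈ J := fun z => Ideal.Quotient.eq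
  have hz : ∀ z : B', z.1.1 - z.1.2 ∈ J := fun z => (hB _).1 z.2
  let h : B' →+* DualNumber F :=
    { toFun := fun z => TrivSqZeroExt.inl (π z.1.1) + TrivSqZeroExt.inr (lam (z.1.1 - z.1.2))
      map_one' := by
        refine TrivSqZeroExt.ext (by simp) ?_
        simp [l0]
      map_zero' := by
        refine TrivSqZeroExt.ext (by simp) ?_
        simp [l0]
      map_add' := fun x y => by
        refine TrivSqZeroExt.ext (by simp) ?_
        have e : (x + y).1.1 - (x + y).1.2 = (x.1.1 - x.1.2) + (y.1.1 - y.1.2) := by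
          simp only [Subring.coe_add, Prod.fst_add, Prod.snd_add]; ring
        rw [e, l1 _ (hz x) _ (hz y)]
        simp
      map_mul' := fun x y => by
        refine TrivSqZeroExt.ext (by simp) ?_
        have e : (x * y).1.1 - (x * y).1.2 =
            x.1.1 * (y.1.1 - y.1.2) + y.1.2 * (x.1.1 - x.1.2) := by
          simp only [Subring.coe_mul, Prod.fst_mul, Prod.snd_mul]; ring
        have e2 : π y.1.2 = π y.1.1 := by
          have := hJπ _ (hz y)
          rw [map_sub, sub_eq_zero] at this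
          exact this.symm
        rw [e, l1 _ (J.mul_mem_left _ (hz y)) _ (J.mul_mem_left _ (hz x)), l2 _ _ (hz y),
          l2 _ _ (hz x), e2]
        simp [DualNumber.snd_mul, mul_comm] }
  let σ2 : G →* Mt B' :=
    { toFun := fun g => Matrix.of fun i j => ⟨(σ g i j, σ' g i j), (hB _).2 (hm g i j)⟩
      map_one' := by
        ext i j <;> simp only [map_one, Matrix.of_apply, Matrix.one_apply] <;> split_ifs <;> rfl
      map_mul' := fun g k => by
        ext i j <;> simp [Matrix.mul_apply] }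
  refine ⟨B', inferInstance, (RingHom.fst B B).comp B'.subtype, (RingHom.snd B B).comp B'.subtype,
    h, σ2, J, fun z h1 h2 => Subtype.ext (Prod.ext h1 h2),
    fun x y hxy => ⟨⟨(x, y), (hB _).2 hxy⟩, rfl, rfl⟩, hz, fun z => by simp [h],
    fun z e => ?_, fun g => ⟨rfl, rfl⟩, ?_⟩
  · have e' : z.1.1 - z.1.2 = 0 := sub_eq_zero.2 e
    simp [h, e', l0]
  · by_contra hc
    push Not at hc
    refine hlt.not_ge ?_
    rw [Ideal.span_le]
    rintro _ ⟨x, rfl⟩
    refine l3 _ (hm _ _ _) ?_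
    simpa [h, σ2] using hc x.1 x.2.1 x.2.2

theorem tame_of {G Γ Γ' : Type} [Group G] [Monoid Γ] [Monoid Γ'] {ℓ : ℕ} {D I N : Subgroup G}
    {τ φ : G} {f : G →* Γ} (h : TameAt ℓ D I N τ φ f) (f' : G →* Γ')
    (hf : ∀ x y, f x = f y → f' x = f' y) : TameAt ℓ D I N τ φ f' :=
  ⟨h.ID, h.NI, h.tau, h.phi, h.cjI, h.cjN, fun p hp => (h.odd p hp).imp fun m hm =>
    ⟨hm.1, by rw [← map_pow, hf (p ^ m) 1 (by rw [map_pow, hm.2, map_one]), map_one]⟩, h.cyc,
    h.rel, fun g hg => by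
      obtain ⟨k, s, hs, e⟩ := h.gen g hg
      exact ⟨k, s, hs, hf _ _ e⟩⟩

/-- the type condition -/
def Typ {G : Type} [Group G] (π : B →+* F) (σ : G →* Mt B) (g0 τ : G) (y0 : F) (a : B) : Prop :=
  ∃ y : B, y ^ 2 - (σ g0).trace * y + (σ g0).det = 0 ∧ π y = y0 ∧
    (σ (τ * g0)).trace - y * (σ τ).trace = a * ((σ g0).trace - 2 * y)

/-- rigidity at a regular prime -/
theorem detW {G : Type} [Group G] [Finite B] {ℓ : ℕ} {I N H : Subgroup G} {τ φ g0 : G}
    {rb : G →* Mt F} (hW : WD ℓ ⊤ H g0 rb) (π : B →+* F) (loc : ∀ a, π a ≠ 0 → IsUnit a)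
    (σ σ' : G →* Mt B) (l1 : Lift π rb σ) (l2 : Lift π rb σ')
    (hT : TameAt ℓ ⊤ I N τ φ (σ.prod σ')) (hd : (σ τ).det = (σ' τ).det) (a : B)
    (t1 : Typ π σ g0 τ (rb g0 1 1) a) (t2 : Typ π σ' g0 τ (rb g0 1 1) a)
    (hc : ∀ t, σ (cg H g0 τ φ t) (cp H τ t) (cq H τ φ t) =
      σ' (cg H g0 τ φ t) (cp H τ t) (cq H τ φ t)) (x : G) : σ x = σ' x := by
  by_contra hne
  obtain ⟨B', _, p1, p2, h, σ2, J, j1, j2, j3, j4, j5, j6, g, i, j, j7⟩ :=
    small π loc σ σ' (fun g => (l1 g).trans (l2 g).symm) ⟨x, hne⟩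
  let jj : F →+* DualNumber F := TrivSqZeroExt.inlHom F F
  let π0 : DualNumber F →+* F := (TrivSqZeroExt.fstHom F F F).toRingHom
  have hπ0 : ∀ z, π0 z = z.fst := fun _ => rfl
  let r : G →* Mt (DualNumber F) := jj.mapMatrix.toMonoidHom.comp rb
  let s : G →* Mt (DualNumber F) := h.mapMatrix.toMonoidHom.comp σ2
  have hr : ∀ g a b, r g a b = TrivSqZeroExt.inl (rb g a b) := fun _ _ _ => rfl
  have hs : ∀ g a b, s g a b = h (σ2 g a b) := fun _ _ _ => rfl
  have e1 : ∀ g a b, p1 (σ2 g a b) = σ g a b := fun g a b => congrFun (congrFun (j6 g).1 a) b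
  have e2 : ∀ g a b, p2 (σ2 g a b) = σ' g a b := fun g a b => congrFun (congrFun (j6 g).2 a) b
  have m1 : Lift π0 rb s := fun g => by
    ext a b; rw [Matrix.map_apply, hπ0, hs, j4, e1, l1.ent]
  have m2 : Lift π0 rb r := fun g => by
    ext a b; rw [Matrix.map_apply, hπ0, hr]; rfl
  have cst : ∀ z, p1 z = p2 z → h z = TrivSqZeroExt.inl (π (p1 z)) := fun z hz =>
    TrivSqZeroExt.ext (j4 z) (j5 z hz)
  have hLR : LR π0 := by
    refine ⟨⟨2, ?_⟩, fun z hz => TrivSqZeroExt.isUnit_iff_isUnit_fst.2 (isUnit_iff_ne_zero.2 hz)⟩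
    rw [pow_two, eq_bot_iff, Ideal.mul_le]
    intro u hu v hv
    have hu' : u.fst = 0 := hu
    have hv' : v.fst = 0 := hv
    exact TrivSqZeroExt.ext (by simp [hu']) (by simp [DualNumber.snd_mul, hu', hv'])
  have hc' : ∀ t, s (cg H g0 τ φ t) (cp H τ t) (cq H τ φ t) =
      r (cg H g0 τ φ t) (cp H τ t) (cq H τ φ t) := fun t => by
    rw [hs, cst _ (by rw [e1, e2, hc]), e1, l1.ent, hr]
  have r01 : r g0 0 1 = 0 := by rw [hr, (hW.dg _ hW.g0H).1]; rfl
  have r10 : r g0 1 0 = 0 := by rw [hr, (hW.dg _ hW.g0H).2]; rfl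
  have c0 : s g0 0 1 = 0 := (hc' 0).trans r01
  have c1 : s g0 1 0 = 0 := (hc' 1).trans r10
  have hT2 : TameAt ℓ ⊤ I N τ φ (s.prod r) := tame_of hT _ fun x y e => by
    have a1 : σ x = σ y := congrArg Prod.fst e
    have a2 : σ' x = σ' y := congrArg Prod.snd e
    have a3 : σ2 x = σ2 y := Matrix.ext fun a b => sub_eq_zero.1
      (j1 _ (by rw [map_sub, e1, e1, a1, sub_self]) (by rw [map_sub, e2, e2, a2, sub_self]))
    exact Prod.ext (congrArg h.mapMatrix a3) (congrArg jj.mapMatrix (l1.eq a1))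
  have h2 : Two π0 ℓ ⊤ I N H τ φ g0 rb s r :=
    ⟨hW, hLR, m1, m2, mon hW hLR m1 (hT2.comp (MonoidHom.fst _ _)) c0 c1,
      mon hW hLR m2 (hT2.comp (MonoidHom.snd _ _)) r01 r10, hT2⟩
  have d1 : ∀ g, p1 (σ2 g).det = (σ g).det := fun g => by
    rw [RingHom.map_det, RingHom.mapMatrix_apply, (j6 g).1]
  have d2 : ∀ g, p2 (σ2 g).det = (σ' g).det := fun g => by
    rw [RingHom.map_det, RingHom.mapMatrix_apply, (j6 g).2]
  have d3 : ∀ g, (s g).det = h (σ2 g).det := fun g => (RingHom.map_det h _).symm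
  have u1 : ∀ g, p1 (σ2 g).trace = (σ g).trace := fun g => by
    simp only [Matrix.trace_fin_two, map_add, e1]
  have u2 : ∀ g, p2 (σ2 g).trace = (σ' g).trace := fun g => by
    simp only [Matrix.trace_fin_two, map_add, e2]
  have u3 : ∀ g, (s g).trace = h (σ2 g).trace := fun g => by
    simp only [Matrix.trace_fin_two, map_add, hs]
  have hd' : (s τ).det = (r τ).det := by
    rw [d3, cst _ (by rw [d1, d2, hd]), d1, RingHom.map_det, RingHom.mapMatrix_apply, l1]
    exact jj.map_det _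
  have fin : s g = r g := by
    refine h2.rigid (fun t ht htH i => ?_) hc' trivial
    by_cases hτ : τ ∈ H
    · obtain ⟨y, y1, y2, y3⟩ := t1
      obtain ⟨y', y1', y2', y3'⟩ := t2
      have hu : IsUnit (y + y' - (σ g0).trace) := loc _ (by
        rw [map_sub, map_add, y2, y2', Matrix.trace_fin_two, map_add, l1.ent, l1.ent]
        intro h0
        exact hW.ne (by linear_combination -h0))
      have hy : y - y' ∈ J := by
        refine (Ideal.unit_mul_mem_iff_mem _ hu).1 ?_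
        have a1 := j3 (σ2 g0).trace
        have a2 := j3 (σ2 g0).det
        rw [u1, u2] at a1
        rw [d1, d2] at a2
        convert J.sub_mem (J.mul_mem_left y' a1) a2 using 1
        linear_combination y1 - y1'
      obtain ⟨z, z1, z2⟩ := j2 y y' hy
      obtain ⟨w, w1, w2⟩ := j2 a a (by rw [sub_self]; exact J.zero_mem)
      have b1 : z ^ 2 - (σ2 g0).trace * z + (σ2 g0).det = 0 :=
        j1 _ (by simp only [map_add, map_sub, map_mul p1, map_pow, u1, d1, z1, y1])
          (by simp only [map_add, map_sub, map_mul p2, map_pow, u2, d2, z2, y1'])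
      have b2 : (σ2 (τ * g0)).trace - z * (σ2 τ).trace - w * ((σ2 g0).trace - 2 * z) = 0 :=
        j1 _ (by simp only [map_sub, map_mul p1, map_ofNat, u1, z1, w1, y3, sub_self])
          (by simp only [map_sub, map_mul p2, map_ofNat, u2, z2, w2, y3', sub_self])
      have b3 := congrArg h b1
      have b4 := congrArg h b2
      simp only [map_add, map_sub, map_mul h, map_pow, map_ofNat, ← u3, ← d3, map_zero] at b3 b4
      simp only [map_mul s, Matrix.trace_fin_two, Matrix.det_fin_two, Matrix.mul_apply,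
        Fin.sum_univ_two, c0, c1] at b3 b4
      have v1 : IsUnit (h z - s g0 0 0) := hLR.loc _ (by
        rw [map_sub, m1.ent, hπ0, j4, z1, y2, sub_ne_zero]; exact hW.ne.symm)
      have e : h z = s g0 1 1 := v1.mul_left_cancel (by linear_combination b3)
      have v2 : IsUnit (s g0 0 0 - s g0 1 1) := hLR.loc _ (by
        rw [map_sub, m1.ent, m1.ent, sub_ne_zero]; exact hW.ne)
      rw [e] at b4
      have e' : s τ 0 0 = h w := v2.mul_left_cancel (by linear_combination b4)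
      have e0 : s τ 0 0 = r τ 0 0 := by
        rw [hr, ← m1.ent, e', hπ0, j4, ← cst w (w1.trans w2.symm)]
      have hD := hT.ID hT.tau
      have e3 : s τ 1 1 = r τ 1 1 := by
        rw [Matrix.det_fin_two, Matrix.det_fin_two, h2.m1.off _ hD hτ 0 1 (by decide),
          h2.m2.off _ hD hτ 0 1 (by decide), e0] at hd'
        exact (h2.unit hτ 0).mul_left_cancel (by linear_combination hd')
      refine h2.gen_in hτ i ?_ ht
      fin_cases i
      · exact e0
      · exact e3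
    · exact h2.gen_out hτ hd' ht htH i
  apply j7
  rw [← hs, fin, hr]
  rfl

end Vale.Agent.P022G.Loc.Dt
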