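import Vale.Agent.P022G.Loc.Cls

/-!
# P022G, block Loc: the assembly of the local blocks
-/

set_option linter.all false

noncomputable section

namespace Vale.Agent.P022G.Loc

open NumberField IsLocalRing MvPowerSeries
open Vale.Agent.P022 Vale.Agent.P022.H443 Vale.Agent.P022D Vale.Agent.P022G.R
open Vale.Agent.P027M.S (mx)
open Vale.Agent.P022D.Sel (M2 IsDec)
open Vale.Agent.P022E.Loc (Pl Tm Rt En)

namespace GlueP

variable {O F : Type} [CommRing O] [Field F] {S : Dat O F}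

theorem beta_map {A B : Type} [CommRing A] [CommRing B] {X : Obj S A} {Y : Obj S B} {u : A →+* B}
    (h : Hom X Y u) (l : ℕ) : (X.β l).map u = Y.β l := by
  have h1 : Y.α l * (X.β l).map u = 1 := by
    rw [← h.α, ← Matrix.map_mul, X.inv, Matrix.map_one _ (map_zero _) (map_one _)]
  calc (X.β l).map u = (Y.β l * Y.α l) * (X.β l).map u := by
        rw [mul_eq_one_comm.1 (Y.inv l), one_mul]
    _ = Y.β l := by rw [Matrix.mul_assoc, h1, mul_one]

theorem lr_hom {A B : Type} [CommRing A] [CommRing B] {X : Obj S A} {Y : Obj S B} {u : A →+* B}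
    (h : Hom X Y u) (l : ℕ) (g : GQ) : (lr X l g).map u = lr Y l g := by
  rw [lr_apply, lr_apply, Matrix.map_mul, Matrix.map_mul, beta_map h, h.ρ, h.α]

theorem lr_res {A : Type} [CommRing A] (X : Obj S A) (l : ℕ) (g : GQ) :
    (lr X l g).map X.π = mx S.rb g := by
  have h1 : (X.α l).map X.π * (X.β l).map X.π = 1 := by
    rw [← Matrix.map_mul, X.inv, Matrix.map_one _ (map_zero _) (map_one _)]
  rw [X.one, one_mul] at h1
  rw [lr_apply, Matrix.map_mul, Matrix.map_mul, h1, X.one, X.res, one_mul, mul_one]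

/-- the local representation in the basis given by `u`, `v` -/
def cv {A : Type} [CommRing A] (X : Obj S A) (l : ℕ) (u v : M2 O) (g : GQ) : M2 A :=
  u.map X.ι * lr X l g * v.map X.ι

theorem map_map' {A B : Type} [CommRing A] [CommRing B] (u : M2 O) (i : O →+* A) (j : A →+* B)
    (k : O →+* B) (h : ∀ c, j (i c) = k c) : (u.map i).map j = u.map k := by
  ext a b; exact h _

theorem cv_hom {A B : Type} [CommRing A] [CommRing B] {X : Obj S A} {Y : Obj S B} {w : A →+* B}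
    (h : Hom X Y w) (l : ℕ) (u v : M2 O) (g : GQ) : (cv X l u v g).map w = cv Y l u v g := by
  rw [cv, cv, Matrix.map_mul, Matrix.map_mul, lr_hom h, map_map' u _ _ _ h.ι, map_map' v _ _ _ h.ι]

theorem cv_res {A : Type} [CommRing A] (X : Obj S A) (l : ℕ) (u v : M2 O) (g : GQ) :
    (cv X l u v g).map X.π = u.map S.red * mx S.rb g * v.map S.red := by
  rw [cv, Matrix.map_mul, Matrix.map_mul, lr_res, map_map' u _ _ _ X.alg, map_map' v _ _ _ X.alg]

theorem uv {A : Type} [CommRing A] (i : O →+* A) {u v : M2 O} (h : u * v = 1) :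
    u.map i * v.map i = 1 ∧ v.map i * u.map i = 1 := by
  have h1 : u.map i * v.map i = 1 := by
    rw [← Matrix.map_mul, h, Matrix.map_one _ (map_zero _) (map_one _)]
  exact ⟨h1, mul_eq_one_comm.1 h1⟩

/-- as a homomorphism -/
def cvh {A : Type} [CommRing A] (X : Obj S A) (l : ℕ) {u v : M2 O} (h : u * v = 1) :
    GQ →* M2 A where
  toFun := cv X l u v
  map_one' := by rw [cv, map_one, mul_one, (uv X.ι h).1]
  map_mul' g k := by
    rw [cv, cv, cv, map_mul]
    calc u.map X.ι * (lr X l g * lr X l k) * v.map X.ι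
        = u.map X.ι * (lr X l g * (v.map X.ι * u.map X.ι) * lr X l k) * v.map X.ι := by
          rw [(uv X.ι h).2, mul_one]
      _ = _ := by simp only [mul_assoc]

theorem conj_tr {A : Type} [CommRing A] {a b : M2 A} (h : a * b = 1) (M : M2 A) :
    (b * M * a).trace = M.trace := by
  rw [Matrix.trace_mul_comm, ← mul_assoc, h, one_mul]

theorem conj_det {A : Type} [CommRing A] {a b : M2 A} (h : a * b = 1) (M : M2 A) :
    (b * M * a).det = M.det := by
  have h1 := congrArg Matrix.det h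
  rw [Matrix.det_mul, Matrix.det_one] at h1
  rw [Matrix.det_mul, Matrix.det_mul]
  linear_combination M.det * h1

theorem cv_tr {A : Type} [CommRing A] (X : Obj S A) (l : ℕ) {u v : M2 O} (h : u * v = 1) (g : GQ) :
    (cv X l u v g).trace = (X.ρ g).trace := by
  rw [cv, conj_tr (uv X.ι h).2, lr_apply, conj_tr (X.inv l)]

theorem cv_det {A : Type} [CommRing A] (X : Obj S A) (l : ℕ) {u v : M2 O} (h : u * v = 1) (g : GQ) :
    (cv X l u v g).det = (X.ρ g).det := by
  rw [cv, conj_det (uv X.ι h).2, lr_apply, conj_det (X.inv l)]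

theorem cv_congr {A : Type} [CommRing A] (X : Obj S A) (l : ℕ) (u v : M2 O) {g k : GQ}
    (h : X.ρ g = X.ρ k) : cv X l u v g = cv X l u v k := by
  rw [cv, cv, lr_apply, lr_apply, h]

/-- the eight coordinates at a unipotent prime -/
def cc {A : Type} [CommRing A] (M N : M2 A) (b n : A) : Fin 8 → A :=
  ![M 0 0 - 1, M 0 1 - b, M 1 0, M 1 1 - 1, N 0 0 - 1, N 0 1 - n, N 1 0, N 1 1 - 1]

theorem cc_map {A B : Type} [CommRing A] [CommRing B] (w : A →+* B) (M N : M2 A) (b n : A)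
    (i : Fin 8) : w (cc M N b n i) = cc (M.map w) (N.map w) (w b) (w n) i := by
  fin_cases i <;> simp [cc]

theorem cc_zero {A : Type} [CommRing A] (b n : A) (i : Fin 8) :
    cc !![1, b; 0, 1] !![1, n; 0, 1] b n i = 0 := by
  fin_cases i <;> simp [cc]

theorem of_cc {A : Type} [CommRing A] {M N : M2 A} {b n : A} (h : ∀ i, cc M N b n i = 0) :
    M = !![1, b; 0, 1] ∧ N = !![1, n; 0, 1] := by
  have h0 := sub_eq_zero.1 (h 0)
  have h1 := sub_eq_zero.1 (h 1)
  have h2 : M 1 0 = 0 := h 2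
  have h3 := sub_eq_zero.1 (h 3)
  have h4 := sub_eq_zero.1 (h 4)
  have h5 := sub_eq_zero.1 (h 5)
  have h6 : N 1 0 = 0 := h 6
  have h7 := sub_eq_zero.1 (h 7)
  constructor
  · rw [Matrix.eta_fin_two M, h0, h1, h2, h3]
  · rw [Matrix.eta_fin_two N, h4, h5, h6, h7]

theorem mP_map {A σ : Type} [CommRing A] (ψ : MvPowerSeries σ O →+* A) (i : O →+* A)
    (hC : ∀ o, ψ (C o) = i o) (x : Fin 8 → σ) (M N : M2 A) (b n : O)
    (hX : ∀ k, ψ (X (x k)) = cc M N (i b) (i n) k) :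
    (Rl.mP x 1 b).map ψ = M ∧ (Rl.mT x n).map ψ = N := by
  have h0 : ψ (X (x 0)) = M 0 0 - 1 := hX 0
  have h1 : ψ (X (x 1)) = M 0 1 - i b := hX 1
  have h2 : ψ (X (x 2)) = M 1 0 := hX 2
  have h3 : ψ (X (x 3)) = M 1 1 - 1 := hX 3
  have h4 : ψ (X (x 4)) = N 0 0 - 1 := hX 4
  have h5 : ψ (X (x 5)) = N 0 1 - i n := hX 5
  have h6 : ψ (X (x 6)) = N 1 0 := hX 6
  have h7 : ψ (X (x 7)) = N 1 1 - 1 := hX 7
  constructor
  · ext a c
    fin_cases a <;> fin_cases c <;> simp [Rl.mP, h0, h1, h2, h3, hC]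
  · ext a c
    fin_cases a <;> fin_cases c <;> simp [Rl.mT, h4, h5, h6, h7, hC]

theorem lr_const {Y : Obj S (DualNumber F)} (hY : Std Y) (l : ℕ) {u v : M2 O} (h : u * v = 1)
    (g : GQ) (b : O) (h1 : u.map S.red * mx S.rb g * v.map S.red = !![1, S.red b; 0, 1])
    (h2 : cv Y l u v g = !![1, Y.ι b; 0, 1]) :
    lr Y l g = (mx S.rb g).map TrivSqZeroExt.inl := by
  let j : F →+* DualNumber F := algebraMap F (DualNumber F)
  have hj : ∀ c, j (S.red c) = Y.ι c := fun c => (hY.io c).symm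
  have h3 : u.map Y.ι * (mx S.rb g).map j * v.map Y.ι = !![1, Y.ι b; 0, 1] := by
    rw [← map_map' u S.red j Y.ι hj, ← map_map' v S.red j Y.ι hj, ← Matrix.map_mul,
      ← Matrix.map_mul, h1]
    refine Matrix.ext fun a c => ?_
    fin_cases a <;> fin_cases c <;> simp [← hj]
  rw [← h3, cv] at h2
  have h4 := congrArg (fun M => v.map Y.ι * M * u.map Y.ι) h2
  simp only [mul_assoc, (uv Y.ι h).2, mul_one] at h4
  simp only [← mul_assoc, (uv Y.ι h).2, one_mul] at h4
  exact h4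

theorem two_adic {l : ℕ} (hl : l.Prime) (h2 : l ≠ 2) :
    (∃ a u, l = 2 ^ (a + 1) * (2 * u + 1) + 1) ∧ ∃ a v, l + 1 = 2 ^ (a + 1) * (2 * v + 1) := by
  obtain ⟨k, hk⟩ := hl.odd_of_ne_two h2
  have h3 := hl.two_le
  constructor
  · obtain ⟨a, m, ⟨u, hu⟩, e⟩ := Nat.exists_eq_two_pow_mul_odd (n := k) (by omega)
    exact ⟨a, u, by rw [hk, e, hu]; ring⟩
  · obtain ⟨a, m, ⟨u, hu⟩, e⟩ := Nat.exists_eq_two_pow_mul_odd (n := k + 1) (by omega)
    refine ⟨a, u, ?_⟩
    rw [← hu, pow_succ, mul_comm _ 2, mul_assoc, ← e, hk]; ring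

/-- the relative dimensions -/
def kk (l : ℕ) : ℕ := if l = 0 then 2 else if l = 2 then 6 else 4

theorem one_of {i : O →+* F} {u v : M2 O} (h : u * v = 1)
    {M : M2 F} {n : O} (h1 : u.map i * M * v.map i = !![1, i n; 0, 1]) : i n = 0 ↔ M = 1 := by
  refine ⟨fun hn => ?_, fun hM => ?_⟩
  · rw [hn, ← Matrix.one_fin_two] at h1
    have h4 := congrArg (fun N => v.map i * N * u.map i) h1
    simp only [mul_assoc, (uv i h).2, mul_one] at h4
    simp only [← mul_assoc, (uv i h).2, one_mul] at h4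
    exact h4
  · rw [hM, mul_one, (uv i h).1] at h1
    exact (congrFun (congrFun h1 0) 1).symm

theorem e8_one {A : Type} [CommRing A] (j : O →+* A) (b n : A) (M N : M2 A) (i : Fin 8) :
    e8 (j 1) b n M N i = cc M N b n i := by
  rw [map_one]; rfl

end GlueP

open GlueP

theorem locg_of (hC : CLO) (h2 : B2) (h0 : B0) (hW : BW) (hB : BC) : LOCG := by
  intro O F _ _ _ _ _ _ _ S L ϖ hϖ hL
  classical
  have hpr : ∀ l ∈ L.W ∪ L.C, l ≠ 0 ∧ l ≠ 2 := fun l hl =>
    ⟨(hL.pr l hl).1.ne_zero, (hL.pr l hl).2⟩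
  have hdec : ∀ l ∈ S.T, IsDec l (L.D l) := by
    intro l hl
    rw [hL.hT, Finset.mem_insert, Finset.mem_insert] at hl
    rcases hl with rfl | rfl | hl
    · exact Or.inl ⟨rfl, L.c, hL.cj, if_pos rfl⟩
    · refine Or.inr ⟨Nat.prime_two, L.P 2, ?_, ?_, if_neg (by norm_num)⟩
      · rw [hL.h2]; exact Loc2.PP_prime 2
      · rw [hL.h2]; exact Loc2.p_mem_PP 2
    · exact Or.inr ⟨(hL.pr l hl).1, L.P l, (hL.hP l hl).1, (hL.hP l hl).2, if_neg (hpr l hl).1⟩
  let B : Finset ℕ := insert 0 (insert 2 L.W)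
  have hBl : ∀ b : B, Blk L S b (kk b) := by
    rintro ⟨b, hb⟩
    rw [Finset.mem_insert, Finset.mem_insert] at hb
    rcases hb with rfl | rfl | hb
    · exact h0 O F S L hL
    · exact h2 O F S L hL
    · have h := hpr b (Finset.mem_union_left _ hb)
      show Blk L S b (kk b)
      rw [kk, if_neg h.1, if_neg h.2]
      exact hW O F S L hL b hb
  choose τ ι iτ iι g p q c f hcard hc hconst hblk htan hvan using hBl
  have hCl := fun γ : L.C => hB O F S L hL γ γ.2
  choose u v b n huv hφ hτ using fun γ : L.C => (hCl γ).1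
  have h2a := fun γ : L.C => two_adic (hL.pr γ (Finset.mem_union_right _ γ.2)).1
    (hL.pr γ (Finset.mem_union_right _ γ.2)).2
  choose a ha using fun γ : L.C => (h2a γ).1
  choose a' ha' using fun γ : L.C => (h2a γ).2
  let K : Kx O B τ ι L.C :=
    { l := fun s => s.1
      g := fun s => g s.1 s.2
      p := fun s => p s.1 s.2
      q := fun s => q s.1 s.2
      c := fun s => c s.1 s.2
      f := f
      u := u
      v := v
      s := fun _ => 1
      b := b
      n := n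
      ξ := fun γ => (L.r (L.τ γ)).det
      a := a
      a' := a' }
  have κr : ∀ (A : Type) [CommRing A] (X : Obj S A) (γ : L.C) (i : Fin 8),
      K.crd L S A X (Sum.inr (γ, i)) = cc (cv X γ (u γ) (v γ) (L.φ γ))
        (cv X γ (u γ) (v γ) (L.τ γ)) (X.ι (b γ)) (X.ι (n γ)) i := fun A _ X γ i =>
    e8_one X.ι _ _ _ _ i
  refine ⟨B, τ, ι, inferInstance, iτ, iι, K, hC O F S L hL, hdec, ⟨?_, ?_, ?_⟩, fun t => ?_, huv,
    ?_, fun σ' => ⟨S.surj, ?_, hconst, hblk, fun γ => ?_, fun γ => ?_, ha, ha'⟩,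
    fun γ => one_of (huv γ) (hτ γ), fun γ => ⟨rfl, (hCl γ).2.2.2⟩,
    fun σ' A _ X hX ψ hψC hψX => ?_⟩
  · rintro A A' _ _ X Y w h - (s | s)
    · show w (lr X s.1 (g s.1 s.2) (p s.1 s.2) (q s.1 s.2) - X.ι (c s.1 s.2)) =
        lr Y s.1 (g s.1 s.2) (p s.1 s.2) (q s.1 s.2) - Y.ι (c s.1 s.2)
      rw [map_sub, h.ι, ← lr_hom h]; rfl
    · obtain ⟨γ, i⟩ := s
      rw [κr, κr, cc_map, cv_hom h, cv_hom h, h.ι, h.ι]
  · rintro A _ X - (s | s)
    · show X.π (lr X s.1 (g s.1 s.2) (p s.1 s.2) (q s.1 s.2) - X.ι (c s.1 s.2)) = 0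
      rw [map_sub, X.alg, hc, ← lr_res X s.1]
      exact sub_self _
    · obtain ⟨γ, i⟩ := s
      rw [κr, cc_map, cv_res, cv_res, hφ, hτ, X.alg, X.alg, cc_zero]
  · intro Y y1 y2 hY hκ l hl x hx
    have hs : Std Y := ⟨y1, y2⟩
    by_cases hlB : l ∈ B
    · exact htan ⟨l, hlB⟩ Y hs hY (fun t => sub_eq_zero.1 (hκ (Sum.inl ⟨⟨l, hlB⟩, t⟩))) x hx
    · have hlC : l ∈ L.C := by
        rw [hL.hT] at hl
        simp only [B, Finset.mem_insert, Finset.mem_union, not_or] at hl hlB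
        tauto
      obtain ⟨e1, e2⟩ := of_cc (M := cv Y l (u ⟨l, hlC⟩) (v ⟨l, hlC⟩) (L.φ l))
        (N := cv Y l (u ⟨l, hlC⟩) (v ⟨l, hlC⟩) (L.τ l)) (b := Y.ι (b ⟨l, hlC⟩))
        (n := Y.ι (n ⟨l, hlC⟩)) fun i => (κr _ Y ⟨l, hlC⟩ i).symm.trans (hκ (Sum.inr (⟨l, hlC⟩, i)))
      exact (hCl ⟨l, hlC⟩).2.2.1 Y hs (lr_const hs l (huv _) _ _ (hφ _) e1)
        (lr_const hs l (huv _) _ _ (hτ _) e2) x hx
  · have := t.1.2
    rw [hL.hT]
    show (t.1 : ℕ) ∈ _
    simp only [B, Finset.mem_insert, Finset.mem_union] at this ⊢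
    tauto
  · have hW0 : ∀ l ∈ L.W, kk l = 4 := fun l hl => by
      have h := hpr l (Finset.mem_union_left _ hl)
      rw [kk, if_neg h.1, if_neg h.2]
    have n2 : 2 ∉ L.W ∪ L.C := fun h => (hpr 2 h).2 rfl
    have n0 : 0 ∉ L.W ∪ L.C := fun h => (hpr 0 h).1 rfl
    have hk : ∑ b : B, kk b = 8 + 4 * L.W.card := by
      rw [Finset.sum_coe_sort B kk, Finset.sum_insert, Finset.sum_insert,
        Finset.sum_congr rfl hW0, Finset.sum_const, smul_eq_mul]
      · simp only [kk]; norm_num; ring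
      · exact fun h => n2 (Finset.mem_union_left _ h)
      · rw [Finset.mem_insert, not_or]
        exact ⟨by norm_num, fun h => n0 (Finset.mem_union_left _ h)⟩
    have hT : S.T.card = 2 + L.W.card + L.C.card := by
      rw [hL.hT, Finset.card_insert_of_notMem, Finset.card_insert_of_notMem n2,
        Finset.card_union_of_disjoint hL.dj]
      · ring
      · rw [Finset.mem_insert, not_or]
        exact ⟨by norm_num, n0⟩
    rw [Fintype.card_sigma, Fintype.card_sigma, Finset.sum_congr rfl fun b _ => hcard b,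
      Finset.sum_add_distrib, hk, hT]
    ring
  · rw [← hϖ.maximalIdeal_eq]
    exact Ideal.ext fun c => hL.ker c
  · show S.red 1 ≠ 0
    rw [map_one]; exact one_ne_zero
  · show S.red (L.r (L.τ γ)).det = 1
    rw [RingHom.map_det, ← hL.det (L.τ γ), ← hL.lift]; rfl
  · let D := K.D (fun γ => (γ : ℕ)) σ'
    have hm : ∀ γ : L.C, (D.Φ γ).map ψ = cv X γ (u γ) (v γ) (L.φ γ) ∧
        (D.T γ).map ψ = cv X γ (u γ) (v γ) (L.τ γ) := fun γ =>
      mP_map ψ X.ι hψC (D.x γ) _ _ (b γ) (n γ) fun k =>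
        (hψX (Sum.inr (γ, k))).trans (κr A X γ k)
    refine sup_le (sup_le ?_ ?_) ?_
    · rw [Ideal.span_le]
      rintro _ ⟨s, rfl⟩
      exact hvan s.1 A X hX (ψ.comp (rename (R := O) (CA.emb D.eg s.1)).toRingHom)
        (fun o => (congrArg ψ (rename_C _ o)).trans (hψC o))
        (fun t => (congrArg ψ (rename_X _ t)).trans (hψX (Sum.inl ⟨s.1, t⟩))) s.2
    · rw [Ideal.span_le]
      rintro _ ⟨s, rfl⟩
      have e : ψ.mapMatrix (D.Φ s.1 * D.T s.1 - D.T s.1 ^ D.l s.1 * D.Φ s.1) = 0 := by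
        rw [map_sub, map_mul, map_mul, map_pow, RingHom.mapMatrix_apply, RingHom.mapMatrix_apply,
          (hm _).1, (hm _).2, sub_eq_zero]
        have e1 := (hCl s.1).2.1 A X
        rw [← map_pow, ← map_mul, ← map_mul] at e1
        have e2 := cv_congr X s.1 (u s.1) (v s.1) e1
        change cvh X s.1 (huv s.1) _ = cvh X s.1 (huv s.1) _ at e2
        rw [map_mul, map_mul, map_pow] at e2
        exact e2
      exact congrFun (congrFun e s.2.1) s.2.2
    · rw [Ideal.span_le]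
      rintro _ ⟨γ, rfl⟩
      show ψ ((D.T γ).det - C (D.ξ γ)) = 0
      rw [map_sub, RingHom.map_det, RingHom.mapMatrix_apply, (hm γ).2, cv_det X _ (huv γ), hψC,
        hX.dl γ (Finset.mem_union_right _ γ.2)]
      exact sub_self _

end Vale.Agent.P022G.Loc
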